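import Mathlib.LinearAlgebra.Matrix.SpecialLinearGroup
import Mathlib.LinearAlgebra.Matrix.Trace
import Mathlib.LinearAlgebra.Matrix.NonsingularInverse
import Mathlib.Tactic

set_option linter.all false

/-!
The matrices of size two over the field with seven elements, with a code in `0, ..., 65535` for
each of them, in which the kernel computes products quickly.
-/

namespace Vale.Agent.P258.Seven

/-- The number with the hexadecimal digits `d, c, b, a`. -/
def cd (a b c d : ℕ) : ℕ :=
  Nat.add (Nat.add a (Nat.mul 16 b)) (Nat.add (Nat.mul 256 c) (Nat.mul 4096 d))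

def dA (x : ℕ) : ℕ := Nat.land x 15
def dB (x : ℕ) : ℕ := Nat.land (Nat.shiftRight x 4) 15
def dC (x : ℕ) : ℕ := Nat.land (Nat.shiftRight x 8) 15
def dD (x : ℕ) : ℕ := Nat.shiftRight x 12

def mulA (a b c d e f g h : ℕ) : ℕ :=
  cd (Nat.mod (Nat.add (Nat.mul a e) (Nat.mul b g)) 7)
    (Nat.mod (Nat.add (Nat.mul a f) (Nat.mul b h)) 7)
    (Nat.mod (Nat.add (Nat.mul c e) (Nat.mul d g)) 7)
    (Nat.mod (Nat.add (Nat.mul c f) (Nat.mul d h)) 7)

def mulN (x y : ℕ) : ℕ :=
  mulA (Nat.land x 15) (Nat.land (Nat.shiftRight x 4) 15) (Nat.land (Nat.shiftRight x 8) 15)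
    (Nat.shiftRight x 12) (Nat.land y 15) (Nat.land (Nat.shiftRight y 4) 15)
    (Nat.land (Nat.shiftRight y 8) 15) (Nat.shiftRight y 12)

def negN (a : ℕ) : ℕ := Nat.mod (Nat.sub 7 a) 7

/-- The adjugate. -/
def invN (x : ℕ) : ℕ :=
  cd (Nat.shiftRight x 12) (negN (Nat.land (Nat.shiftRight x 4) 15))
    (negN (Nat.land (Nat.shiftRight x 8) 15)) (Nat.land x 15)

/-- The determinant. -/
def detN (x : ℕ) : ℕ :=
  Nat.mod (Nat.add (Nat.mul (Nat.land x 15) (Nat.shiftRight x 12))
    (Nat.mul (Nat.land (Nat.shiftRight x 4) 15) (negN (Nat.land (Nat.shiftRight x 8) 15)))) 7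

def cjN (x k : ℕ) : ℕ := mulN (mulN (invN k) x) k

def ciN (x k : ℕ) : ℕ := mulN (mulN k x) (invN k)

def force {α : Type} (n : ℕ) (f : ℕ → α) : α :=
  Nat.rec (motive := fun _ => α) (f 0) (fun m _ => f (Nat.succ m)) n

theorem force_eq {α : Type} (n : ℕ) (f : ℕ → α) : force n f = f n := by
  cases n <;> rfl

def wA (a b c d : ℕ) : ℕ :=
  cond (Nat.beq b 0) (cond (Nat.beq c 0) (cd 1 1 a d) (cd 0 1 c d)) (cd 1 0 a b)

/-- The code of a matrix conjugating the given one to the companion matrix. -/
def wN (x : ℕ) : ℕ :=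
  wA (Nat.land x 15) (Nat.land (Nat.shiftRight x 4) 15) (Nat.land (Nat.shiftRight x 8) 15)
    (Nat.shiftRight x 12)

def inv13 (x : ℕ) : ℕ :=
  force (invN x) fun u => force (mulN u u) fun u2 => force (mulN u2 u2) fun u4 =>
    mulN (mulN (mulN u4 u4) u4) u

/-- The power of exponent `168`. -/
def p168 (x : ℕ) : ℕ :=
  force (mulN x x) fun x2 => force (mulN x2 x2) fun x4 => force (mulN x4 x4) fun x8 =>
    force (mulN x8 x8) fun x16 => force (mulN x16 x16) fun x32 => force (mulN x32 x32) fun x64 =>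
    force (mulN x64 x64) fun x128 => mulN (mulN x128 x32) x8

def dig : List ℕ := [0, 1, 2, 3, 4, 5, 6]

/-- The companion matrix. -/
def cmp (t : ℕ) : ℕ := cd 0 1 6 t

/-- The matrix `α + β C` for the companion matrix `C` of trace `t`. -/
def cen (t α β : ℕ) : ℕ := cd α β (negN β) (Nat.mod (Nat.add α (Nat.mul t β)) 7)

/-- The codes of the elements of trace `t` and determinant one which do not have square one. -/
def cl (t : ℕ) : List ℕ :=
  ([[1552, 800, 560, 1344, 1104, 352, 25873, 26145, 25649, 25409, 24913, 25185, 21010, 20770,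
    21298, 21570, 22098, 21858, 17427, 16931, 17971, 16707, 17747, 17251, 13332, 12836, 13876,
    12612, 13652, 13156, 8725, 8485, 9013, 9285, 9813, 9573, 5398, 5670, 5174, 4934, 4438, 4710],
    [5648, 4896, 4656, 5440, 5200, 4448, 1553, 801, 561, 1345, 1105, 353, 25618, 25122, 26162,
    24898, 25938, 25442, 20483, 20739, 20995, 21251, 21507, 21763, 22019, 20499, 20515, 20531,
    20547, 20563, 20579, 16660, 17444, 17716, 16964, 17236, 18020, 12293, 12549, 12805, 13061,
    13317, 13573, 13829, 12309, 12325, 12341, 12357, 12373, 12389, 9238, 8742, 9782, 8518, 9558,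
    9062],
    [9744, 8992, 8752, 9536, 9296, 8544, 4353, 4609, 4865, 5121, 5377, 5633, 4113, 4129, 4145,
    4161, 4177, 4193, 1554, 802, 562, 1346, 1106, 354, 25363, 25891, 24883, 26179, 25171, 25699,
    21780, 22052, 21556, 21316, 20820, 21092, 17685, 17957, 17461, 17221, 16725, 16997, 13078,
    13606, 12598, 13894, 12886, 13414],
    [13840, 13088, 12848, 13632, 13392, 12640, 8465, 9249, 9521, 8769, 9041, 9825, 4370, 5154,
    5426, 4674, 4946, 5730, 1555, 803, 563, 1347, 1107, 355, 25108, 24868, 25396, 25668, 26196,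
    25956, 21269, 21797, 20789, 22085, 21077, 21605, 16918, 16678, 17206, 17478, 18006, 17766],
    [17936, 17184, 16944, 17728, 17488, 16736, 12817, 12577, 13105, 13377, 13905, 13665, 8978,
    9506, 8498, 9794, 8786, 9314, 4627, 4387, 4915, 5187, 5715, 5475, 1556, 804, 564, 1348, 1108,
    356, 24853, 25637, 25909, 25157, 25429, 26213, 20758, 21542, 21814, 21062, 21334, 22118],
    [22032, 21280, 21040, 21824, 21584, 20832, 17169, 17697, 16689, 17985, 16977, 17505, 13586,
    13858, 13362, 13122, 12626, 12898, 9491, 9763, 9267, 9027, 8531, 8803, 4884, 5412, 4404,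
    5700, 4692, 5220, 1557, 805, 565, 1349, 1109, 357, 24838, 25094, 25350, 25606, 25862, 26118,
    24598, 24614, 24630, 24646, 24662, 24678],
    [26128, 25376, 25136, 25920, 25680, 24928, 21521, 21025, 22065, 20801, 21841, 21345, 16386,
    16642, 16898, 17154, 17410, 17666, 17922, 16402, 16418, 16434, 16450, 16466, 16482, 12563,
    13347, 13619, 12867, 13139, 13923, 8196, 8452, 8708, 8964, 9220, 9476, 9732, 8212, 8228,
    8244, 8260, 8276, 8292, 5141, 4645, 5685, 4421, 5461, 4965, 1558, 806, 566, 1350, 1110, 358]] : List (List ℕ)).getD t []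

/-- Representatives of the elements of trace `t` up to conjugation by the elements of `cs t`. -/
def orb (t : ℕ) : List ℕ :=
  ([[1552, 800, 560, 352, 25873, 24913, 21298],
    [5648, 4896, 4656, 5440, 4448, 1553, 801, 561, 1105, 353, 22019],
    [9744, 8992, 8752, 8544, 4609, 5377, 5633, 354, 25171, 21316, 17461, 13606],
    [13840, 13088, 12848, 12640, 8465, 5154, 355],
    [17936, 17184, 16944, 16736, 12817, 13105, 356],
    [22032, 21280, 21040, 20832, 17169, 17697, 16689, 13362, 13122, 9027, 4692, 357],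
    [26128, 25376, 25136, 25920, 24928, 21521, 20801, 21345, 16642, 17666, 358]] : List (List ℕ)).getD t []

/-- Matrices commuting with the companion matrix of trace `t`. -/
def cs (t : ℕ) : List ℕ :=
  ([[4097, 5649, 5409, 5169, 4929, 4689, 4449, 1552],
    [4097, 9745, 17457, 25169, 353, 5648],
    [4097, 13841, 21793, 1073, 9025, 16977, 9744],
    [4097, 17937, 1313, 13361, 25409, 8785, 20833, 13840],
    [4097, 22033, 9505, 25649, 13121, 593, 16737, 17936],
    [4097, 17697, 9265, 833, 21073, 12641, 22032],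
    [4097, 1553, 25889, 17217, 8545, 26128]] : List (List ℕ)).getD t []

end Vale.Agent.P258.Seven
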